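import Mathlib
import Vale.Agent.P137.Stmt

/-! P137 (uncentered maximal function, endpoint gradient bound): all working definitions.
See notes/P137.md for the proof. -/

namespace Vale.Agent.P137

open MeasureTheory Metric Set Filter Topology
open scoped ENNReal NNReal RealInnerProductSpace

noncomputable section

abbrev E (d : ℕ) : Type := EuclideanSpace ℝ (Fin d)

variable {d : ℕ}

/-! ### Averages, deformation field, gradient pairs -/

/-- Average over the open ball. -/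
def av {F : Type} [NormedAddCommGroup F] [NormedSpace ℝ F] (h : E d → F) (z : E d) (r : ℝ) : F :=
  ⨍ y in ball z r, h y

/-- Volume of the unit ball. -/
def om (d : ℕ) : ℝ := (volume (ball (0 : E d) 1)).toReal

def pz (z z' : E d) (σ : ℝ) : E d := z + σ • (z' - z)

def pr (r r' σ : ℝ) : ℝ := r + σ * (r' - r)

/-- Test field of the linear deformation of the ball `(z, r)` into the ball `(z', r')`. -/
def fld (z : E d) (r : ℝ) (z' : E d) (r' : ℝ) (p : E d) : E d :=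
  ∫ σ in Icc (0 : ℝ) 1, (ball (pz z z' σ) (pr r r' σ)).indicator
    (fun q => (om d * pr r r' σ ^ d)⁻¹ • ((z' - z) + ((r' - r) / pr r r' σ) • (q - pz z z' σ))) p

/-- `μ` is the gradient of `h` inside `O`, tested on ball averages. -/
structure Pair (h : E d → ℝ) (μ : E d → E d) (O : Set (E d)) : Prop where
  ih : Integrable h
  im : Integrable μ
  eq : ∀ (c : E d) (ρ : ℝ) (z : E d) (r : ℝ) (z' : E d) (r' : ℝ), ball c ρ ⊆ O → 0 < r → 0 < r' →
    ‖z - c‖ + r ≤ ρ → ‖z' - c‖ + r' ≤ ρ →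
    av h z' r' - av h z r = ∫ p, ⟪fld z r z' r' p, μ p⟫

/-! ### Truncated maximal function -/

/-- Uncentered maximal function with radii in `[δ, η]`. -/
def Nm (h : E d → ℝ) (δ η : ℝ) (x : E d) : ℝ :=
  sSup {a | ∃ z r, δ ≤ r ∧ r ≤ η ∧ ‖x - z‖ ≤ r ∧ a = av h z r}

/-- `(z, r)` is an optimal ball for `x`. -/
def Opt (h : E d → ℝ) (δ η : ℝ) (x z : E d) (r : ℝ) : Prop :=
  δ ≤ r ∧ r ≤ η ∧ ‖x - z‖ ≤ r ∧ av h z r = Nm h δ η x

/-- Points of differentiability with nonzero derivative. -/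
def Act (N : E d → ℝ) (x : E d) : Prop := DifferentiableAt ℝ N x ∧ fderiv ℝ N x ≠ 0

/-! ### Parameters -/

def be (d : ℕ) : ℝ := 1 / (5 * √(d : ℝ))
def c0 (d : ℕ) : ℝ := be d ^ 2 / 64
def g0 (d : ℕ) : ℝ := be d / 100
def bb (d : ℕ) : ℕ := d + 11
def aa (d : ℕ) : ℕ := 2 * bb d

/-! ### Dyadic grids -/

structure Grid (d : ℕ) where
  o : E d
  L : ℝ
  hL : 0 < L

namespace Grid

/-- Side length at level `k`. -/
def len (g : Grid d) (k : ℕ) : ℝ := g.L / 2 ^ k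

/-- Radius scale at level `j`. -/
def R (g : Grid d) (j : ℕ) : ℝ := g.len (j + bb d)

def idx (g : Grid d) (k : ℕ) (y : E d) : Fin d → ℤ := fun i => ⌊(y i - g.o i) / g.len k⌋

def cube (g : Grid d) (k : ℕ) (y : E d) : Set (E d) := {u | g.idx k u = g.idx k y}

/-- The corner of the level `k` cube with index `n`. -/
def rep (g : Grid d) (k : ℕ) (n : Fin d → ℤ) : E d :=
  WithLp.toLp 2 fun i => g.o i + g.len k * n i

/-- The corner of the level `k` cube of `y`. -/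
def cor (g : Grid d) (k : ℕ) (y : E d) : E d := g.rep k (g.idx k y)

/-- The lattice vector `len k * e`. -/
def sh (g : Grid d) (k : ℕ) (e : Fin d → ℤ) : E d := WithLp.toLp 2 fun i => g.len k * e i

/-- The grid moved by `w`. -/
def move (g : Grid d) (w : E d) : Grid d := ⟨g.o + w, g.L, g.hL⟩

/-- A set which is a union of level `k` cubes. -/
def Sat (g : Grid d) (k : ℕ) (S : Set (E d)) : Prop :=
  ∀ y u, g.idx k y = g.idx k u → y ∈ S → u ∈ S

/-- A function which is constant on level `k` cubes. -/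
def Cst (g : Grid d) (k : ℕ) {α : Type} (φ : E d → α) : Prop :=
  ∀ y u, g.idx k y = g.idx k u → φ y = φ u

/-- The dyadic martingale of `μ`. -/
def vk (g : Grid d) (μ : E d → E d) (k : ℕ) (y : E d) : E d := ⨍ u in g.cube k y, μ u

/-- Total mass of the level `k` averages. -/
def F (g : Grid d) (μ : E d → E d) (k : ℕ) : ℝ := ∫ y, ‖g.vk μ k y‖

/-- `z` lies at distance at least `len j / 6` from the faces of its level `j` cube. -/
def Deep (g : Grid d) (j : ℕ) (z : E d) : Prop :=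
  ∀ i, g.cor j z i + g.len j / 6 ≤ z i ∧ z i + g.len j / 6 ≤ g.cor j z i + g.len j

/-- Level `k` mass outside the good cone `Gd`. -/
def bd (g : Grid d) (μ : E d → E d) (Gd : Set (E d)) (k : ℕ) (y : E d) : ℝ≥0∞ :=
  Gdᶜ.indicator (fun ξ => ‖ξ‖ₑ) (g.vk μ k y)

/-- Bad mass of all levels from `k` on, with geometric weights. -/
def BD (g : Grid d) (μ : E d → E d) (Gd : Set (E d)) (k : ℕ) (y : E d) : ℝ≥0∞ :=
  ∑' m : ℕ, (3 / 4 : ℝ≥0∞) ^ m * g.bd μ Gd (k + m) y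

/-- Neighbourhood of index width `n` of the level `j` part of `T`. -/
def Nb (g : Grid d) (T : ℕ → Set (E d)) (n : ℕ) (j : ℕ) : Set (E d) :=
  {u | ∃ y ∈ T j, ∀ i, |g.idx j u i - g.idx j y i| ≤ n}

/-- Signed distance to the faces of the cube `cube j0 y0`. -/
def tt (g : Grid d) (j0 : ℕ) (y0 z : E d) : ℝ :=
  ⨅ i, min (z i - g.cor j0 y0 i) (g.cor j0 y0 i + g.len j0 - z i)

end Grid

/-- A good cone around `ν`. -/
structure Cone (ν : E d) (Gd : Set (E d)) : Prop where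
  norm_le : ‖ν‖ ≤ 1
  meas : MeasurableSet Gd
  le : ∀ ξ ∈ Gd, ‖ξ‖ ≤ 2 * ⟪ν, ξ⟫

/-! ### Charging -/

/-- The level `lam` is close to the reference average at `y`, up to the `w` mass near `y`. -/
def Near (h : E d → ℝ) (C : ℝ≥0) (R : ℝ) (w : E d → ℝ≥0∞) (lam : ℝ) (y : E d) : Prop :=
  edist lam (av h y (c0 d * R)) ≤ C * ENNReal.ofReal (R / R ^ d) * ∫⁻ u in ball y (6 * R), w u

/-- `x` is charged to an interval on the ray from `x` in direction `u`. -/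
def Chg (h N : E d → ℝ) (C : ℝ≥0) (R : ℕ → ℝ) (w : ℕ → E d → ℝ≥0∞) (Tm : ℝ) (u x : E d) : Prop :=
  ∃ (j : ℕ) (s0 : ℝ), 0 ≤ s0 ∧ s0 + g0 d * R j ≤ Tm ∧
    (∀ s ∈ Ioo s0 (s0 + g0 d * R j), Near h C (R j) (w j) (N x) (x + s • u)) ∧
    ∀ s', 0 < s' → Act N (x + s' • u) → N (x + s' • u) = N x → s0 + g0 d * R j ≤ s'

/-- Points whose optimal ball has a deep centre in `S j` at its level `j`. -/
def AA (h : E d → ℝ) (δ η : ℝ) (g : Grid d) (S : ℕ → Set (E d)) : Set (E d) :=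
  {x | Act (Nm h δ η) x ∧ ∃ j z r, Opt h δ η x z r ∧ g.R j / 2 ≤ r ∧ r ≤ g.R j ∧ g.Deep j z ∧
    z ∈ S j}

/-! ### Abstract trees -/

structure IsTree (g : Grid d) (j0 : ℕ) (y0 : E d) (T : ℕ → Set (E d)) : Prop where
  sat : ∀ j, g.Sat j (T j)
  low : ∀ j, j < j0 → T j = ∅
  top : T j0 = g.cube j0 y0
  anti : ∀ j, j0 ≤ j → T (j + 1) ⊆ T j

def HH (g : Grid d) (j0 : ℕ) (y0 : E d) (T : ℕ → Set (E d)) (j : ℕ) : Set (E d) :=
  g.cube j0 y0 ∩ g.Nb T 6 j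

def Zr (g : Grid d) (j0 : ℕ) (y0 : E d) (T : ℕ → Set (E d)) (j : ℕ) : Set (E d) :=
  g.cube j0 y0 ∩ (g.Nb T 4 j \ g.Nb T 1 j)

def Zs (g : Grid d) (j0 : ℕ) (y0 : E d) (T : ℕ → Set (E d)) (j : ℕ) : Set (E d) :=
  {u | u ∈ HH g j0 y0 T j ∧ 3 * g.R j ≤ g.tt j0 y0 (g.cor (j + aa d) u) ∧
    g.tt j0 y0 (g.cor (j + aa d) u) ≤ 48 * g.R j}

def Zt (g : Grid d) (j0 : ℕ) (y0 : E d) (j : ℕ) : Set (E d) := {u | j = j0 ∧ u ∈ g.cube j0 y0}

def ZZ (g : Grid d) (j0 : ℕ) (y0 : E d) (T : ℕ → Set (E d)) (j : ℕ) : Set (E d) :=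
  Zr g j0 y0 T j ∪ Zs g j0 y0 T j ∪ Zt g j0 y0 j

/-- The weight of level `j` of a tree. -/
def wT (g : Grid d) (μ : E d → E d) (Gd : Set (E d)) (j0 : ℕ) (y0 : E d) (T : ℕ → Set (E d))
    (j : ℕ) (u : E d) : ℝ≥0∞ :=
  (HH g j0 y0 T j).indicator (g.BD μ Gd (j + aa d)) u +
    (ZZ g j0 y0 T j).indicator (fun u => ‖g.vk μ (j + aa d) u‖ₑ) u

/-- The cost of a tree. -/
def cost (g : Grid d) (μ : E d → E d) (Gd : Set (E d)) (j0 : ℕ) (y0 : E d) (T : ℕ → Set (E d)) :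
    ℝ≥0∞ :=
  (∫⁻ u in g.cube j0 y0, ‖g.vk μ j0 u‖ₑ) +
    ∑' j : ℕ, ∫⁻ u in HH g j0 y0 T j, g.BD μ Gd (j + aa d) u

/-! ### Directions and the stopping construction -/

def uv (v : E d) : E d := ‖v‖⁻¹ • v

def Far (α : ℝ) (v w : E d) : Prop := v ≠ 0 ∧ w ≠ 0 ∧ α < ‖uv v - uv w‖

def pl (v w : E d) : ℝ := ‖v‖ + ‖w‖ - ‖v + w‖

/-- A unit vector close to the direction of `ω` and transversal to all coordinate hyperplanes. -/
def nu (ω : E d) : E d :=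
  uv (uv ω + (1 / (40 * √(d : ℝ))) • WithLp.toLp 2 fun i => if 0 ≤ ω i then (1 : ℝ) else -1)

def Good (ν : E d) : Set (E d) := {ξ | ¬ Far (1 / 4) ν ξ}

def box (d : ℕ) : Finset (Fin d → ℤ) := Fintype.piFinset fun _ => Finset.Icc (-6) 6

/-- Trivial cubes: zero mass, or a heavier neighbour with a far direction. -/
def Triv (g : Grid d) (μ : E d → E d) (j : ℕ) (y : E d) : Prop :=
  g.vk μ j y = 0 ∨ ∃ e ∈ box d, ‖g.vk μ j y‖ < ‖g.vk μ j (y + g.sh j e)‖ ∧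
    Far (1 / 20) (g.vk μ j y) (g.vk μ j (y + g.sh j e))

open Classical in
/-- Level of the top cube of the tree containing the level `j` cube of `y`. -/
def tp (g : Grid d) (μ : E d → E d) : ℕ → E d → ℕ
  | 0, _ => 0
  | j + 1, y =>
    if 4 ≤ j ∧ ¬ Triv g μ j y ∧ ¬ Far (3 / 20) (nu (g.vk μ (tp g μ j y) y)) (g.vk μ (j + 1) y)
    then tp g μ j y else j + 1

/-- The tree with top cube `cube j0 y0`. -/
def TT (g : Grid d) (μ : E d → E d) (K j0 : ℕ) (y0 : E d) (j : ℕ) : Set (E d) :=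
  {y | y ∈ g.cube j0 y0 ∧ j0 ≤ j ∧ j ≤ K ∧ tp g μ j y = j0 ∧ ¬ Triv g μ j y}

/-- `cube j0 y0` is the top of a tree. -/
def IsTop (g : Grid d) (μ : E d → E d) (K j0 : ℕ) (y0 : E d) : Prop :=
  4 ≤ j0 ∧ j0 ≤ K ∧ tp g μ j0 y0 = j0 ∧ ¬ Triv g μ j0 y0

/-- Pair loss at level `j`. -/
def PL (g : Grid d) (μ : E d → E d) (j : ℕ) : ℝ≥0∞ :=
  ∑ e ∈ box d, ∫⁻ y, ENNReal.ofReal (pl (g.vk μ j y) (g.vk μ j (y + g.sh j e)))

/-- The budget of a grid. -/
def bud (g : Grid d) (μ : E d → E d) (K : ℕ) : ℝ≥0∞ :=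
  (∫⁻ y, ‖μ y‖ₑ) + ∑ j ∈ Finset.Icc 4 K, PL g μ j

end

end Vale.Agent.P137
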